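import Mathlib
import Vale.Agent.Lib.Helper4.TotientValues

namespace Vale.Agent.Results.P031.LiminfLimsup

open Filter Topology Vale.Agent.Lib.Helper4

theorem result (c : ℝ) (hc : 1 < c) :
    Filter.liminf (fun x : ℝ =>
        (((totientValueCount (c * x) : ℝ) / (totientValueCount x : ℝ) : ℝ) : EReal)) atTop
      ≤ (c : EReal) ∧
    (c : EReal) ≤ Filter.limsup (fun x : ℝ =>
        (((totientValueCount (c * x) : ℝ) / (totientValueCount x : ℝ) : ℝ) : EReal)) atTop := by
  have hVpos : ∀ᶠ x : ℝ in atTop, (0 : ℝ) < (totientValueCount x : ℝ) := by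
    filter_upwards [eventually_ge_atTop (1 : ℝ)] with x hx
    exact_mod_cast one_le_totientValueCount hx
  constructor
  · rw [← EReal.le_of_forall_lt_iff_le]
    intro c' hcc'
    have hcc : c < c' := by exact_mod_cast hcc'
    apply Filter.liminf_le_of_frequently_le'
    have hfreq := (frequently_totientValueCount_lt c c' hc hcc).and_eventually hVpos
    refine hfreq.mono ?_
    rintro x ⟨hx, hV⟩
    have : (totientValueCount (c * x) : ℝ) / (totientValueCount x : ℝ) ≤ c' :=
      ((div_lt_iff₀ hV).mpr hx).le
    exact_mod_cast this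
  · rw [← EReal.ge_of_forall_gt_iff_ge]
    intro c' hcc'
    have hcc : c' < c := by exact_mod_cast hcc'
    apply Filter.le_limsup_of_frequently_le'
    have hfreq := (frequently_totientValueCount_gt c c' hc hcc).and_eventually hVpos
    refine hfreq.mono ?_
    rintro x ⟨hx, hV⟩
    have : c' ≤ (totientValueCount (c * x) : ℝ) / (totientValueCount x : ℝ) :=
      ((lt_div_iff₀ hV).mpr hx).le
    exact_mod_cast this

end Vale.Agent.Results.P031.LiminfLimsup
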