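import Mathlib
import Vale.Agent.Lib.Helper4.TotientValues

namespace Vale.Agent.Results.P031.LimitUnique

open Filter Topology Vale.Agent.Lib.Helper4

theorem result (c : ℝ) (hc : 1 < c) (L : ℝ)
    (h : Tendsto (fun x : ℝ => (totientValueCount (c * x) : ℝ) / (totientValueCount x : ℝ))
      atTop (𝓝 L)) :
    L = c := by
  have hVpos : ∀ᶠ x : ℝ in atTop, (0 : ℝ) < (totientValueCount x : ℝ) := by
    filter_upwards [eventually_ge_atTop (1 : ℝ)] with x hx
    exact_mod_cast one_le_totientValueCount hx
  by_contra hne
  rcases lt_or_gt_of_ne hne with hlt | hgt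
  · -- L < c
    have hmid : L < (L + c) / 2 := by linarith
    have hmid' : (L + c) / 2 < c := by linarith
    have hfreq := frequently_totientValueCount_gt c ((L + c) / 2) hc hmid'
    have hev := h.eventually (gt_mem_nhds hmid)
    have hcon : ∀ᶠ x : ℝ in atTop,
        ¬ ((L + c) / 2 * (totientValueCount x : ℝ) < (totientValueCount (c * x) : ℝ)) := by
      filter_upwards [hev, hVpos] with x hx hV
      rw [div_lt_iff₀ hV] at hx
      exact not_lt.mpr hx.le
    exact hfreq hcon
  · -- c < L
    have hmid : (L + c) / 2 < L := by linarith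
    have hmid' : c < (L + c) / 2 := by linarith
    have hfreq := frequently_totientValueCount_lt c ((L + c) / 2) hc hmid'
    have hev := h.eventually (lt_mem_nhds hmid)
    have hcon : ∀ᶠ x : ℝ in atTop,
        ¬ ((totientValueCount (c * x) : ℝ) < (L + c) / 2 * (totientValueCount x : ℝ)) := by
      filter_upwards [hev, hVpos] with x hx hV
      rw [lt_div_iff₀ hV] at hx
      exact not_lt.mpr hx.le
    exact hfreq hcon

end Vale.Agent.Results.P031.LimitUnique
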